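import Vale.Agent.P235.K5.SX.H183.S3

set_option autoImplicit false
set_option linter.all false

/-!
# Line GX: the induction over the bags with an arbitrary relation (after helper12, helper183)
-/

namespace Vale.Agent.P235.K5.GX.H473

open Vale.Agent.P235.K5

theorem exists_AQ {V : Type} [Finite V] {H : SimpleGraph V} {n : ℕ} {B : ℕ → Set V}
    (h : Glued 3 H n B) {d : V → V → ℝ} (hd : IsMet d) (hG : Gen H d)
    (Q : ℕ → (V → V → ℝ) → Prop)
    (hQ : ∀ t F F', (∀ u ∈ B t, ∀ v ∈ B t, F' u v = F u v) → Q t F → Q t F')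
    (hP : ∀ t < n, ∀ ρ : V → V → ℝ, IsL1 ρ →
      (∀ x ∈ Adh B t, ∀ y ∈ Adh B t, ρ x y ≤ d x y) →
      ∃ F : V → V → ℝ, IsL1 F ∧ (∀ x ∈ Adh B t, ∀ y ∈ Adh B t, F x y = ρ x y) ∧
        (∀ x ∈ B t, ∀ y ∈ B t, F x y ≤ d x y) ∧ Q t F) :
    ∃ A : V → V → ℝ, IsL1 A ∧ (∀ x y, A x y ≤ d x y) ∧ ∀ t < n, Q t A := by
  classical
  obtain ⟨T⟩ := h.exists_tree
  have key : ∀ m ≤ n, ∃ F : V → V → ℝ, IsL1 F ∧
      (∀ x ∈ Bef B m, ∀ y ∈ Bef B m, F x y ≤ d x y) ∧ ∀ t < m, Q t F := by
    intro m
    induction m with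
    | zero =>
      intro _
      refine ⟨fun _ _ => 0, ⟨Empty, inferInstance, fun _ => 0, fun e => e.elim,
        fun e => e.elim, fun x y => by simp⟩, ?_, ?_⟩
      · rintro x ⟨s, hs, _⟩
        omega
      · intro t ht
        omega
    | succ m ih =>
      intro hm
      obtain ⟨F₁, hF1, hup, hlow⟩ := ih (by omega)
      have hmn : m < n := by omega
      obtain ⟨F₂, hF2, hag, hb, hb3⟩ := hP m hmn F₁ hF1 (fun x hx y hy => hup x hx.2 y hy.2)
      have hS : Bef B m ∩ B m = Adh B m := by
        ext v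
        exact ⟨fun hv => ⟨hv.2, hv.1⟩, fun hv => ⟨hv.2, hv.1⟩⟩
      obtain ⟨F, hF, h1, h2⟩ := glue_small (U := Bef B m) (W := B m) hF1 hF2
        (by rw [hS]; exact h.card m hmn) (by
          rw [hS]
          intro x hx y hy
          exact (hag x hx y hy).symm)
      have hcases : ∀ v ∈ Bef B (m + 1), v ∈ Bef B m ∨ v ∈ B m := by
        rintro v ⟨s, hs, hv⟩
        by_cases e : s = m
        · right; rw [← e]; exact hv
        · left; exact ⟨s, by omega, hv⟩
      have hmix : ∀ x ∈ Bef B m, ∀ y ∈ B m, F x y ≤ d x y := by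
        intro x hx y hy
        by_cases hyU : y ∈ Bef B m
        · rw [h1 x hx y hyU]
          exact hup x hx y hyU
        by_cases hxW : x ∈ B m
        · rw [h2 x hxW y hy]
          exact hb x hxW y hy
        have hiy : h.it y = m := by
          refine le_antisymm (h.it_le hmn hy) ?_
          by_contra hcon
          exact hyU ((h.mem_bef_iff hmn.le).2 (not_le.1 hcon))
        have hys : y ∈ h.Sub T m := by
          show T.Desc m (h.it y)
          rw [hiy]
          exact BTree.Desc.refl m
        have hxs : x ∉ h.Sub T m := by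
          intro hcon
          have h3 : m ≤ h.it x := BTree.Desc.le hcon
          have h4 := (h.mem_bef_iff hmn.le).1 hx
          omega
        obtain ⟨a, ha, h5⟩ := h.sep_metric hd hG hys hxs
        have h6 := hF.tri x a y
        have h7 : F x a ≤ d x a := by
          rw [h1 x hx a ha.2]
          exact hup x hx a ha.2
        have h8 : F a y ≤ d a y := by
          rw [h2 a ha.1 y hy]
          exact hb a ha.1 y hy
        rw [hd.symm y a, hd.symm a x, hd.symm y x] at h5
        linarith
      refine ⟨F, hF, ?_, ?_⟩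
      · intro x hx y hy
        rcases hcases x hx with hx' | hx' <;> rcases hcases y hy with hy' | hy'
        · rw [h1 x hx' y hy']
          exact hup x hx' y hy'
        · exact hmix x hx' y hy'
        · rw [hF.symm, hd.symm]
          exact hmix y hy' x hx'
        · rw [h2 x hx' y hy']
          exact hb x hx' y hy'
      · intro t ht
        by_cases e : t = m
        · subst e
          exact hQ t F₂ F h2 hb3
        · have htm : t < m := by omega
          exact hQ t F₁ F (fun u hu v hv => h1 u ⟨t, htm, hu⟩ v ⟨t, htm, hv⟩) (hlow t htm)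
  obtain ⟨F, hF, h1, h2⟩ := key n le_rfl
  exact ⟨F, hF, fun x y => h1 x (h.cover x) y (h.cover y), h2⟩

end Vale.Agent.P235.K5.GX.H473
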