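import Vale.Agent.P235.K5.H237.TriIso

set_option autoImplicit false

/-!
# P235, line GX, [G2]: the three maps on a triangle without any hypothesis on minors
(`step`, `tri_abe`, `triIso` of K5/H237/TriIso.lean before the centre lemma is used)
-/

namespace Vale.Agent.P235.K5.GX.H473

open Vale.Agent.P235 Vale.Agent.P235.K5.H237 Filter Topology

variable {V : Type}

/-- The three maps together, with an error `ε` on the triangle. -/
lemma stepM {G : SimpleGraph V} {d : V → V → ℝ} {c : ℝ} (hc : 0 < c) (hE : EdgeExact G c)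
    (hd : IsMet d) (hG : Gen G d) {a b e : V} (hab : G.Adj a b) (hae : G.Adj a e)
    (hbe : G.Adj b e) {P Q S : ℝ} (eab : P + Q = d a b) (eae : P + S = d a e)
    (ebe : Q + S = d b e) (hP : 0 ≤ P) (hQ : 0 ≤ Q) (hS : 0 ≤ S)
    {ε : ℝ} (hε : 0 < ε) (hε1 : ε < 1) :
    ∃ F : V → V → ℝ, IsL1 F ∧ (∀ x y, F x y ≤ d x y) ∧ (∀ x y, c / 3 * (rr d a P x y + rr d b Q x y + rr d e S x y) ≤ F x y) ∧
      d a b - ε * (3 * (P + Q + S)) ≤ F a b ∧ d a e - ε * (3 * (P + Q + S)) ≤ F a e ∧
      d b e - ε * (3 * (P + Q + S)) ≤ F b e := by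
  have hT := three hd eab.le eae.le ebe.le
  obtain ⟨F1, hF1, e1, x1, l1⟩ := one hc hE hd hG (q := e) (C := S) hab (A := P) (B := Q)
    (by linarith) (by linarith) hP hQ (fun u v => hT u v) hε hε1
  obtain ⟨F2, hF2, e2, x2, l2⟩ := one hc hE hd hG (q := b) (C := Q) hae (A := P) (B := S)
    (by linarith) (by linarith) hP hS (fun u v => by linarith [hT u v]) hε hε1
  obtain ⟨F3, hF3, e3, x3, l3⟩ := one hc hE hd hG (q := a) (C := P) hbe (A := Q) (B := S)
    (by linarith) (by linarith) hQ hS (fun u v => by linarith [hT u v]) hε hε1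
  have hF : IsL1 (fun x y => F1 x y + F2 x y + F3 x y) := (hF1.add hF2).add hF3
  have hFd : ∀ x y, F1 x y + F2 x y + F3 x y ≤ d x y := by
    intro x y
    have h1 : ∀ u v, G.Adj u v → F1 u v + F2 u v + F3 u v ≤ d u v := by
      intro u v huv
      have h1 := e1 u v huv
      have h2 := e2 u v huv
      have h3 := e3 u v huv
      nlinarith [h1, h2, h3]
    have h2 := hG (fun z => F1 z y + F2 z y + F3 z y) (fun u v huv =>
      (hF.abs_sub_le u v y).trans (h1 u v huv)) x y
    simp only [hF1.self, hF2.self, hF3.self, add_zero, sub_zero] at h2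
    exact (le_abs_self _).trans h2
  refine ⟨_, hF, hFd, ?_, ?_, ?_, ?_⟩
  · intro x y
    have n1 := rr_nonneg hd e S x y
    have n2 := rr_nonneg hd b Q x y
    have n3 := rr_nonneg hd a P x y
    have hlow : c / 3 * (rr d a P x y + rr d b Q x y + rr d e S x y) ≤
        F1 x y + F2 x y + F3 x y := by
      have h1 := l1 x y
      have h2 := l2 x y
      have h3 := l3 x y
      have h4 : c / 3 * (rr d a P x y + rr d b Q x y + rr d e S x y) =
        c / 3 * rr d a P x y + c / 3 * rr d b Q x y + c / 3 * rr d e S x y := by ring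
      linarith
    exact hlow
  all_goals
    have a1 := hFd a b
    have a2 := hFd a e
    have a3 := hFd b e
    have t1 := hF1.tri a e b
    have t2 := hF2.tri a b e
    have t3 := hF3.tri b a e
    rw [hF1.symm e b] at t1
    rw [hF3.symm b a] at t3
    have s1 : (1 - ε) * ((P + Q) / 2) = (P + Q) / 2 - (ε * P + ε * Q) / 2 := by ring
    have s2 : (1 - ε) * ((P + S) / 2) = (P + S) / 2 - (ε * P + ε * S) / 2 := by ring
    have s3 : (1 - ε) * ((Q + S) / 2) = (Q + S) / 2 - (ε * Q + ε * S) / 2 := by ring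
    have s4 : ε * (3 * (P + Q + S)) = 3 * (ε * P) + 3 * (ε * Q) + 3 * (ε * S) := by ring
    have m1 := mul_nonneg hε.le hP
    have m2 := mul_nonneg hε.le hQ
    have m3 := mul_nonneg hε.le hS
    rw [s1] at x1
    rw [s2] at x2
    rw [s3] at x3
    rw [s4]
    linarith

/-- The triangle, with named vertices. -/
theorem triM_abe [Finite V] {G : SimpleGraph V} {d : V → V → ℝ} {c : ℝ} (hc : 0 < c)
    (hE : EdgeExact G c) (hd : IsMet d) (hG : Gen G d) {a b e : V} (hab : G.Adj a b)
    (hae : G.Adj a e) (hbe : G.Adj b e) {P Q S : ℝ} (eab : P + Q = d a b)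
    (eae : P + S = d a e) (ebe : Q + S = d b e) :
    ∃ F : V → V → ℝ, IsL1 F ∧ F a b = d a b ∧ F a e = d a e ∧ F b e = d b e ∧
      (∀ x y, c / 3 * (rr d a P x y + rr d b Q x y + rr d e S x y) ≤ F x y) ∧ ∀ x y, F x y ≤ d x y := by
  classical
  have hP : 0 ≤ P := by
    have := hd.tri b a e
    rw [hd.symm b a] at this
    linarith
  have hQ : 0 ≤ Q := by
    have := hd.tri a b e
    linarith
  have hS : 0 ≤ S := by
    have := hd.tri a e b
    rw [hd.symm e b] at this
    linarith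
  set K : ℝ := 3 * (P + Q + S) with hK
  have hK0 : 0 ≤ K := by positivity
  let J : V → V → ℝ := fun x y => if (x = a ∧ y = b) ∨ (x = a ∧ y = e) ∨ (x = b ∧ y = e) then
    d x y else 0
  have hlim : ∀ x y, Tendsto (fun n : ℕ => max (c / 3 * (rr d a P x y + rr d b Q x y + rr d e S x y))
      (J x y - 1 / ((n : ℝ) + 1) / 2 * K)) atTop (𝓝 (max (c / 3 * (rr d a P x y + rr d b Q x y + rr d e S x y)) (J x y))) := by
    intro x y
    have h1 : Tendsto (fun n : ℕ => J x y - 1 / ((n : ℝ) + 1) / 2 * K) atTop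
        (𝓝 (J x y - 0 / 2 * K)) :=
      tendsto_const_nhds.sub ((tendsto_one_div_add_atTop_nhds_zero_nat.div_const 2).mul_const K)
    rw [zero_div, zero_mul, sub_zero] at h1
    exact tendsto_const_nhds.max h1
  obtain ⟨F, hF, hFd, hFl⟩ := isL1_lim (d := d) hlim (by
    intro n
    have hn : (0 : ℝ) < (n : ℝ) + 1 := by positivity
    have h1 : 0 < 1 / ((n : ℝ) + 1) / 2 := by positivity
    have h2 : 1 / ((n : ℝ) + 1) / 2 < 1 := by
      have h3 : 1 / ((n : ℝ) + 1) ≤ 1 := by
        rw [div_le_one hn]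
        have : (0 : ℝ) ≤ n := Nat.cast_nonneg n
        linarith
      linarith
    obtain ⟨F, hF, hFd, hFl, f1, f2, f3⟩ := stepM hc hE hd hG hab hae hbe eab eae ebe hP hQ hS
      h1 h2
    refine ⟨F, hF, hFd, fun x y => max_le (hFl x y) ?_⟩
    have h4 := mul_nonneg h1.le hK0
    simp only [J]
    split_ifs with hJ
    · rcases hJ with ⟨rfl, rfl⟩ | ⟨rfl, rfl⟩ | ⟨rfl, rfl⟩
      · exact f1
      · exact f2
      · exact f3
    · linarith [hF.nonneg x y])
  refine ⟨F, hF, ?_, ?_, ?_, fun x y => (le_max_left _ _).trans (hFl x y), hFd⟩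
  · apply le_antisymm (hFd a b)
    have h1 : J a b ≤ F a b := (le_max_right _ _).trans (hFl a b)
    have h2 : J a b = d a b := if_pos (Or.inl ⟨rfl, rfl⟩)
    rwa [h2] at h1
  · apply le_antisymm (hFd a e)
    have h1 : J a e ≤ F a e := (le_max_right _ _).trans (hFl a e)
    have h2 : J a e = d a e := if_pos (Or.inr (Or.inl ⟨rfl, rfl⟩))
    rwa [h2] at h1
  · apply le_antisymm (hFd b e)
    have h1 : J b e ≤ F b e := (le_max_right _ _).trans (hFl b e)
    have h2 : J b e = d b e := if_pos (Or.inr (Or.inr ⟨rfl, rfl⟩))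
    rwa [h2] at h1


/-- **[G2] TRIISO without the centre lemma.** -/
theorem triIsoM [Finite V] {G : SimpleGraph V} {c : ℝ} (hc : 0 < c) (hE : EdgeExact G c)
    {d : V → V → ℝ} (hd : IsMet d) (hG : Gen G d) {R : Fin 3 → V}
    (hR : ∀ i j, i ≠ j → G.Adj (R i) (R j)) :
    ∃ F : V → V → ℝ, IsL1 F ∧ (∀ i j, F (R i) (R j) = d (R i) (R j)) ∧
      (∀ x y i, c / 3 * min (d x y) (d x (R i) - gp d R i) ≤ F x y) ∧ ∀ x y, F x y ≤ d x y := by
  have g0 : gp d R 0 = (d (R 0) (R 1) + d (R 0) (R 2) - d (R 1) (R 2)) / 2 := rfl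
  have g1 : gp d R 1 = (d (R 1) (R 2) + d (R 1) (R 0) - d (R 2) (R 0)) / 2 := rfl
  have g2 : gp d R 2 = (d (R 2) (R 0) + d (R 2) (R 1) - d (R 0) (R 1)) / 2 := rfl
  have s10 := hd.symm (R 1) (R 0)
  have s20 := hd.symm (R 2) (R 0)
  have s21 := hd.symm (R 2) (R 1)
  obtain ⟨F, hF, h01, h02, h12, hl, hu⟩ := triM_abe hc hE hd hG (hR 0 1 (by decide))
    (hR 0 2 (by decide)) (hR 1 2 (by decide)) (P := gp d R 0) (Q := gp d R 1) (S := gp d R 2)
    (by rw [g0, g1]; linarith) (by rw [g0, g2]; linarith) (by rw [g1, g2]; linarith)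
  have hrr : ∀ (r : V) (A : ℝ) (x y : V), min (d x y) (d x r - A) ≤ rr d r A x y := by
    intro r A x y
    have h1 : d x r - A ≤ gg d r A x := le_max_left _ _
    have h2 := gg_nonneg (d := d) r A y
    exact min_le_min le_rfl (by linarith)
  refine ⟨F, hF, fun i j => ?_, fun x y i => ?_, hu⟩
  · fin_cases i <;> fin_cases j
    · exact (hF.self _).trans (hd.self _).symm
    · exact h01
    · exact h02
    · exact (hF.symm _ _).trans (h01.trans (hd.symm _ _))
    · exact (hF.self _).trans (hd.self _).symm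
    · exact h12
    · exact (hF.symm _ _).trans (h02.trans (hd.symm _ _))
    · exact (hF.symm _ _).trans (h12.trans (hd.symm _ _))
    · exact (hF.self _).trans (hd.self _).symm
  · refine le_trans (mul_le_mul_of_nonneg_left ?_ (by positivity)) (hl x y)
    have n0 := rr_nonneg hd (R 0) (gp d R 0) x y
    have n1 := rr_nonneg hd (R 1) (gp d R 1) x y
    have n2 := rr_nonneg hd (R 2) (gp d R 2) x y
    have k0 := hrr (R 0) (gp d R 0) x y
    have k1 := hrr (R 1) (gp d R 1) x y
    have k2 := hrr (R 2) (gp d R 2) x y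
    fin_cases i
    · show min (d x y) (d x (R 0) - gp d R 0) ≤ _
      linarith
    · show min (d x y) (d x (R 1) - gp d R 1) ≤ _
      linarith
    · show min (d x y) (d x (R 2) - gp d R 2) ≤ _
      linarith

end Vale.Agent.P235.K5.GX.H473
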